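import Vale.Agent.P093.L192.LR
import Vale.Agent.P093.N4.GoodTh

/-!
# P093, block L192: `LR` for the good unital spaces

`lr_of_thGood` : the last step of part N. If all absolute vanishing lines hold in a stable homotopy
category with a suspension spectrum functor, and the fibre inclusions of the Grassmannian Thom
spaces are `E`-split, then `LR C w` for all good `(C, w)`.
-/

open CategoryTheory MonoidalCategory Topology
open Vale.Agent.P251.St (Space SHCat Susp)
open Vale.Agent.P093.N.TT Vale.Agent.P093.N.LR Vale.Agent.P093.Final

namespace Vale.Agent.P093.L192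

/-- **Step 4.** -/
theorem lr_of_thGood {T : SHCat} (S : Susp T) {U : UTri T.C}
    (hU : ∀ b : ℕ, AVL U (DimLE (T := T.C)) b) (hT : N4.ThSpl S.toSpaceFunctor U) {t : ℕ}
    (C : Space) (w : (Fin t → ℝ) → C.carrier) (h : ThGood C w) : Vale.Agent.P093.U.LR C w := by
  have hC := N4.fc_of_thGood h
  have hw := N4.isClosedEmbedding_of_thGood h
  exact lr_of_avl C w hw hC S hU (N4.spl_of_thGood hT h hw (Vale.Agent.P251.St.fc_toLC hC))

end Vale.Agent.P093.L192
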