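import Vale.Agent.P093.L192.Rec

/-!
# P093, block L192: the cylinder pair

For a closed embedding `w : A → C`, the pair `Y = {(c, l) : l ≥ 0 or c ∈ im w}`, `Y₀ = {l ≤ 0}`.

* `PP.exc`, `PP.tensorLeft`: excision and products for the pushout product property;
* `pp_cy` : the pair `(Y, Y₀)` has the pushout product property;
* `fc_cyZ`, `fc_cyY` : finiteness.
-/

open CategoryTheory MonoidalCategory Filter Topology OnePoint Limits
open Vale.Agent.P251.G Vale.Agent.P251.G.LC

namespace Vale.Agent.P093.L192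

section pp

variable {X Y Z : LC}

/-- Excision for the pushout product property. -/
theorem PP.exc {S : Set Y} (hS : IsClosed S) (z : Z → Y) (hz : IsClosedEmbedding z)
    (hc : ∀ y, y ∉ S → y ∈ Set.range z) (h : PP Z (z ⁻¹' S)) : PP Y S := by
  intro A B P i q hi hq hr
  let T : Set (B ⊗ Z : LC) := {p : B × Z | (p.1 : OnePoint B) ∈ Set.range (app i) ∨ z p.2 ∈ S}
  have hT : IsClosed T :=
    ((isClosed_range_app i).preimage (OnePoint.continuous_coe.comp
      (continuous_fst (X := B) (Y := Z)))).union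
      (hS.preimage (hz.continuous.comp (continuous_snd (X := B) (Y := Z))))
  have hrT : ∀ (b : OnePoint B) (x : OnePoint Z), smash b x ∈ Set.range (app (subι hT)) ↔
      (b ∈ Set.range (app i) ∨ x ∈ ptd (z ⁻¹' S)) := by
    intro b x
    rw [range_subι]
    induction b using OnePoint.rec with
    | infty =>
      rw [smash_infty_left]
      exact ⟨fun _ => Or.inl (infty_mem_range_app i), fun _ => infty_mem_ptd (D := B ⊗ Z) _⟩
    | coe b =>
      induction x using OnePoint.rec with
      | infty =>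
        rw [smash_infty_right]
        exact ⟨fun _ => Or.inr (infty_mem_ptd _), fun _ => infty_mem_ptd (D := B ⊗ Z) _⟩
      | coe x =>
        rw [coe_mem_ptd]
        exact coe_mem_ptd (D := B ⊗ Z) (S := T) (d := (b, x))
  have hq' : Cofib (subι hT) := h i _ hi (injective_subι hT) hrT
  have hz' : ∀ x : OnePoint Z, app (ofClosed z hz) x ∈ ptd S ↔ x ∈ ptd (z ⁻¹' S) := by
    intro x
    induction x using OnePoint.rec with
    | infty => exact ⟨fun _ => infty_mem_ptd _, fun _ => by rw [app_infty]; exact infty_mem_ptd _⟩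
    | coe x => rw [app_ofClosed_coe, coe_mem_ptd, coe_mem_ptd]; exact Iff.rfl
  have hfac : ∀ x, app (subι hT ≫ B ◁ ofClosed z hz) x ∈ Set.range (app q) := by
    intro x
    obtain ⟨b, c, hbc⟩ := smash_surjective (X := B) (Y := Z) (app (subι hT) x)
    rw [app_comp, ← hbc, app_whiskerLeft_smash, hr, hz', ← hrT, hbc]
    exact ⟨x, rfl⟩
  refine hq'.pushout (f := factor q hq _ hfac) (g := B ◁ ofClosed z hz) (isPushout_of_inj ?_
    (injective_whiskerLeft B (injective_ofClosed z hz)) hq ?_ ?_)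
  · rw [factor_comp]
  · intro d
    obtain ⟨b, y, rfl⟩ := smash_surjective (X := B) (Y := Y) d
    rw [hr]
    by_cases hy : y ∈ ptd S
    · exact Or.inr (Or.inr hy)
    · left
      have hy0 : y ≠ ∞ := fun h0 => hy (h0 ▸ infty_mem_ptd S)
      obtain ⟨y', rfl⟩ := OnePoint.ne_infty_iff_exists.mp hy0
      rw [coe_mem_ptd] at hy
      obtain ⟨x, rfl⟩ := hc y' hy
      exact ⟨smash b (x : OnePoint Z), by rw [app_whiskerLeft_smash]; rfl⟩
  · intro d hd
    obtain ⟨b, x, rfl⟩ := smash_surjective (X := B) (Y := Z) d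
    rw [app_whiskerLeft_smash, hr, hz'] at hd
    exact (hrT b x).mpr hd

/-- Products for the pushout product property. -/
theorem PP.tensorLeft (C : LC) {S : Set Y} (h : PP Y S) :
    PP (C ⊗ Y) {p : C × Y | p.2 ∈ S} := by
  intro A B P i q hi hq hr
  have hinj : ∀ {U V : LC} (e : U ≅ V), Function.Injective (app e.hom) := by
    intro U V e x y hxy
    have := congrArg (app e.inv) hxy
    rwa [← app_comp, ← app_comp, Iso.hom_inv_id, app_id, app_id] at this
  have hS : ∀ (c : OnePoint C) (y : OnePoint Y),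
      smash c y ∈ ptd (D := C ⊗ Y) {p : C × Y | p.2 ∈ S} ↔ c = ∞ ∨ y ∈ ptd S := by
    intro c y
    induction c using OnePoint.rec with
    | infty =>
      rw [smash_infty_left]
      exact ⟨fun _ => Or.inl rfl, fun _ => infty_mem_ptd (D := C ⊗ Y) _⟩
    | coe c =>
      induction y using OnePoint.rec with
      | infty =>
        rw [smash_infty_right]
        exact ⟨fun _ => Or.inr (infty_mem_ptd _), fun _ => infty_mem_ptd (D := C ⊗ Y) _⟩
      | coe y =>
        rw [coe_mem_ptd]
        constructor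
        · intro h1
          exact Or.inr ((coe_mem_ptd (D := C ⊗ Y) (d := (c, y))).mp h1)
        · rintro (h1 | h1)
          · exact absurd h1 (OnePoint.coe_ne_infty c)
          · exact (coe_mem_ptd (D := C ⊗ Y) (d := (c, y))).mpr h1
  have h1 : Cofib (q ≫ (α_ B C Y).inv) := by
    refine h (i ▷ C) _ (hi.whiskerRight C) ((hinj (α_ B C Y).symm).comp hq) ?_
    intro bc y
    obtain ⟨b, c, rfl⟩ := smash_surjective (X := B) (Y := C) bc
    have h2 : smash (smash b c) y ∈ Set.range (app (q ≫ (α_ B C Y).inv)) ↔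
        smash b (smash c y) ∈ Set.range (app q) := by
      constructor
      · rintro ⟨x, hx⟩
        refine ⟨x, ?_⟩
        have h3 := congrArg (app (α_ B C Y).hom) hx
        rwa [← app_comp, Category.assoc, Iso.inv_hom_id, Category.comp_id,
          app_associator_smash] at h3
      · rintro ⟨x, hx⟩
        exact ⟨x, by rw [app_comp, hx, app_associator_inv_smash]⟩
    rw [h2, hr, hS]
    constructor
    · rintro (⟨a, ha⟩ | hc | hy)
      · exact Or.inl ⟨smash a c, by rw [app_whiskerRight_smash, ha]⟩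
      · refine Or.inl ⟨∞, ?_⟩
        rw [hc, smash_infty_right]
        exact app_infty _
      · exact Or.inr hy
    · rintro (⟨p, hp⟩ | hy)
      · obtain ⟨a, c', rfl⟩ := smash_surjective (X := A) (Y := C) p
        rw [app_whiskerRight_smash] at hp
        rcases smash_inj hp with ⟨h4, -⟩ | ⟨-, h4⟩
        · exact Or.inl ⟨a, h4⟩
        · rcases smash_eq_infty.mp h4 with h5 | h5
          · left; rw [h5]; exact infty_mem_range_app i
          · exact Or.inr (Or.inl h5)
      · exact Or.inr (Or.inr hy)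
  have h2 := h1.comp_iso (α_ B C Y)
  rwa [Category.assoc, Iso.inv_hom_id, Category.comp_id] at h2

end pp

section cyl

variable {A C : LC} (w : A → C)

/-- the subset `{(c, l) : l ≥ 0 or c ∈ im w}` of `C × ℝ` -/
def cyS : Set (C ⊗ RR : LC) := {q : C × ℝ | 0 ≤ q.2 ∨ q.1 ∈ Set.range w}

variable {w} (hw : IsClosedEmbedding w)

include hw in
theorem isClosed_cyS : IsClosed (cyS w) :=
  (isClosed_le continuous_const (continuous_snd (X := C) (Y := ℝ))).union
    (hw.isClosed_range.preimage (continuous_fst (X := C) (Y := ℝ)))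

/-- the space `Y = {(c, l) : l ≥ 0 or c ∈ im w}` -/
def cyY : LC := sub (isClosed_cyS hw)

/-- a point of `Y` -/
def cyMk (c : C) (l : ℝ) (h : 0 ≤ l ∨ c ∈ Set.range w) : cyY hw := ⟨((c, l) : C × ℝ), h⟩

/-- the first coordinate -/
def cyc (q : cyY hw) : C := Prod.fst (α := C) (β := ℝ) q.1

/-- the second coordinate -/
def cyl (q : cyY hw) : ℝ := Prod.snd (α := C) (β := ℝ) q.1

theorem cyMk_cyc_cyl (q : cyY hw) : cyMk hw (cyc hw q) (cyl hw q) q.2 = q := rfl

variable {hw} in
theorem cy_ext {q q' : cyY hw} (h : cyc hw q = cyc hw q') (h' : cyl hw q = cyl hw q') : q = q' :=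
  Subtype.ext (Prod.ext h h')

theorem cy_mem (q : cyY hw) : 0 ≤ cyl hw q ∨ cyc hw q ∈ Set.range w := q.2

theorem continuous_cyl : Continuous (cyl hw) :=
  (continuous_snd (X := C) (Y := ℝ)).comp continuous_subtype_val

theorem continuous_cyc : Continuous (cyc hw) :=
  (continuous_fst (X := C) (Y := ℝ)).comp continuous_subtype_val

/-- the closed subset `Y₀ = {l ≤ 0}` -/
def cyZ : Set (cyY hw) := {q | cyl hw q ≤ 0}

theorem isClosed_cyZ : IsClosed (cyZ hw) :=
  isClosed_le (continuous_cyl hw) continuous_const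

/-- the map `C × [0, ∞) → Y` -/
def cyTop (p : (C ⊗ HH : LC)) : cyY hw := cyMk hw p.1 (NNReal.toReal p.2) (Or.inl p.2.2)

theorem isClosedEmbedding_cyTop : IsClosedEmbedding (cyTop hw) := by
  have h0 : IsClosedEmbedding (NNReal.toReal : NNReal → ℝ) :=
    NNReal.isClosedEmbedding_coe
  have h1 : IsClosedEmbedding (Prod.map id NNReal.toReal : C × NNReal → C × ℝ) :=
    IsClosedEmbedding.id.prodMap h0
  exact ((isClosedEmbedding_subι (isClosed_cyS hw)).of_comp_iff).mp h1

theorem pp_cy : PP (cyY hw) (cyZ hw) := by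
  refine PP.exc (isClosed_cyZ hw) (cyTop hw) (isClosedEmbedding_cyTop hw) ?_ ?_
  · intro y hy
    have h1 : 0 < cyl hw y := not_le.mp hy
    exact ⟨((cyc hw y, ⟨cyl hw y, h1.le⟩) : C × NNReal), rfl⟩
  · have h1 : cyTop hw ⁻¹' cyZ hw = {p : C × NNReal | p.2 ∈ ({0} : Set NNReal)} := by
      ext p
      change (p.2 : ℝ) ≤ 0 ↔ p.2 = 0
      rw [← NNReal.coe_zero, NNReal.coe_le_coe, le_zero_iff]
    rw [h1]
    exact PP.tensorLeft C (PP.of_pndr pndr_zero_HH)

/-- the map `A × [0, ∞) → Y₀`, `(a, s) ↦ (w a, - s)` -/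
def cyLow (p : (A ⊗ HH : LC)) : sub (isClosed_cyZ hw) :=
  ⟨cyMk hw (w p.1) (-NNReal.toReal p.2) (Or.inr ⟨p.1, rfl⟩), neg_nonpos.mpr p.2.2⟩

theorem isClosedEmbedding_cyLow : IsClosedEmbedding (cyLow hw) := by
  have h0 : IsClosedEmbedding (fun s : NNReal => -(s : ℝ)) :=
    (Homeomorph.neg ℝ).isClosedEmbedding.comp NNReal.isClosedEmbedding_coe
  have h1 : IsClosedEmbedding (Prod.map w (fun s : NNReal => -(s : ℝ)) : A × NNReal → C × ℝ) :=
    hw.prodMap h0
  have h2 := (isClosedEmbedding_subι (isClosed_cyS hw)).comp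
    (isClosedEmbedding_subι (isClosed_cyZ hw))
  exact (h2.of_comp_iff).mp h1

/-- the map `C → Y₀`, `c ↦ (c, 0)` -/
def cyMid (c : C) : sub (isClosed_cyZ hw) :=
  ⟨cyMk hw c 0 (Or.inl le_rfl), le_rfl (a := (0 : ℝ))⟩

theorem isClosedEmbedding_cyMid : IsClosedEmbedding (cyMid hw) := by
  have h1 : IsClosedEmbedding (fun c : C => ((c, 0) : C × ℝ)) := by
    refine ⟨Topology.IsEmbedding.of_comp (f := fun c : C => ((c, 0) : C × ℝ)) (g := Prod.fst)
      (by fun_prop) continuous_fst IsEmbedding.id, ?_⟩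
    have : Set.range (fun c : C => ((c, 0) : C × ℝ)) = {p | p.2 = 0} := by
      ext p
      constructor
      · rintro ⟨c, rfl⟩
        rfl
      · intro h
        exact ⟨p.1, Prod.ext rfl h.symm⟩
    rw [this]
    exact isClosed_eq continuous_snd continuous_const
  have h2 := (isClosedEmbedding_subι (isClosed_cyS hw)).comp
    (isClosedEmbedding_subι (isClosed_cyZ hw))
  exact (h2.of_comp_iff).mp h1

/-- the map `X → X × [0, ∞)`, `x ↦ (x, 0)` -/
def base0 (X : LC) (x : X) : (X ⊗ HH : LC) := ((x, 0) : X × NNReal)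

theorem isClosedEmbedding_base0 (X : LC) : IsClosedEmbedding (base0 X) := by
  refine ⟨Topology.IsEmbedding.of_comp (f := base0 X) (g := Prod.fst)
    (continuous_id.prodMk continuous_const) continuous_fst IsEmbedding.id, ?_⟩
  have : Set.range (base0 X) = {p : X × NNReal | p.2 = 0} := by
    ext p
    constructor
    · rintro ⟨c, rfl⟩
      rfl
    · intro h
      exact ⟨p.1, Prod.ext rfl h.symm⟩
  rw [this]
  exact isClosed_eq (continuous_snd (X := X) (Y := NNReal)) continuous_const

theorem coneBase_eq (X : LC) : coneBase X = ofClosed (base0 X) (isClosedEmbedding_base0 X) := by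
  ext x
  rw [app_coneBase]
  rfl

theorem isPushout_cyZ : IsPushout (coneBase A) (ofClosed w hw)
    (ofClosed (cyLow hw) (isClosedEmbedding_cyLow hw))
    (ofClosed (cyMid hw) (isClosedEmbedding_cyMid hw)) := by
  rw [coneBase_eq]
  refine isPushout_closed (D := sub (isClosed_cyZ hw)) _ _ _ _ ?_ ?_ ?_
  · intro a
    apply Subtype.ext
    apply cy_ext
    · rfl
    · exact neg_zero (G := ℝ)
  · rintro ⟨y, hy⟩
    by_cases h0 : cyl hw y = 0
    · right
      refine ⟨cyc hw y, ?_⟩
      apply Subtype.ext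
      exact cy_ext rfl h0.symm
    · left
      rcases cy_mem hw y with h | ⟨a, ha⟩
      · exact absurd (le_antisymm hy h) h0
      · refine ⟨((a, ⟨-cyl hw y, neg_nonneg.mpr hy⟩) : A × NNReal), ?_⟩
        apply Subtype.ext
        exact cy_ext ha (neg_neg (cyl hw y))
  · rintro ⟨a, s⟩ ⟨c, hc⟩
    have h1 : (0 : ℝ) = -NNReal.toReal s :=
      congrArg (fun z : sub (isClosed_cyZ hw) => cyl hw z.1) hc
    have h2 : s = (0 : NNReal) := by
      apply NNReal.coe_injective
      rw [NNReal.coe_zero]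
      linarith
    exact ⟨a, Prod.ext rfl h2.symm⟩

theorem isPushout_cyY : IsPushout (coneBase C)
    (ofClosed (cyMid hw) (isClosedEmbedding_cyMid hw))
    (ofClosed (cyTop hw) (isClosedEmbedding_cyTop hw)) (subι (isClosed_cyZ hw)) := by
  rw [coneBase_eq]
  refine isPushout_closed (D := cyY hw) _ _ _ _ ?_ ?_ ?_
  · intro c
    exact cy_ext rfl NNReal.coe_zero
  · rintro y
    by_cases h : y ∈ cyZ hw
    · exact Or.inr ⟨⟨y, h⟩, rfl⟩
    · have h1 : 0 < cyl hw y := not_le.mp h
      exact Or.inl ⟨((cyc hw y, ⟨cyl hw y, h1.le⟩) : C × NNReal), rfl⟩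
  · rintro ⟨c, s⟩ ⟨z, hz⟩
    have h1 : cyl hw z.1 = NNReal.toReal s := congrArg (fun y : cyY hw => cyl hw y) hz
    have h2 : cyl hw z.1 ≤ 0 := z.2
    have h3 : s = (0 : NNReal) := by
      apply NNReal.coe_injective
      rw [NNReal.coe_zero]
      exact le_antisymm (h1 ▸ h2) s.2
    exact ⟨c, Prod.ext rfl h3.symm⟩

theorem fc_cyZ (hA : FC A) (hC : FC C) : FC (sub (isClosed_cyZ hw)) :=
  FC.pushout hA (hA.tensor FC.halfLine) hC (cofib_coneBase A) (isPushout_cyZ hw)

theorem fc_cyY (hA : FC A) (hC : FC C) : FC (cyY hw) :=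
  FC.pushout hC (hC.tensor FC.halfLine) (fc_cyZ hw hA hC) (cofib_coneBase C) (isPushout_cyY hw)

end cyl

end Vale.Agent.P093.L192
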