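import Vale.Agent.P093.L192.Cyl

/-!
# P093, block L192: the unit and the collapse of the cylinder pair

* `isHEquiv_cyIn` : the inclusion `A × ℝ → Y` is a homotopy equivalence of one-point
  compactifications;
* `cyOut : Y ⟶ C ⊗ ℝ` : the collapse of `Y₀`; `cyOut_cofMap` : it is the strict cofibre of
  `Y₀ ⟶ Y`;
* `cyIn_cyOut` : `A ⊗ ℝ ⟶ Y ⟶ C ⊗ ℝ` is `w ⊗ κ` for a homotopy equivalence `κ`.
-/

open CategoryTheory MonoidalCategory Filter Topology OnePoint Limits
open Vale.Agent.P251.G Vale.Agent.P251.G.LC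

namespace Vale.Agent.P093.L192

theorem isCompl_of_iff {α : Type*} {s t : Set α} (h : ∀ x, x ∈ s ↔ x ∉ t) : IsCompl s t := by
  have h1 : s = tᶜ := Set.ext h
  rw [h1]
  exact isCompl_compl.symm

section hequiv

variable {X Y Z : LC}

/-- two out of three -/
theorem isHEquiv_of_comp {f : X ⟶ Y} {g : Y ⟶ Z} (h : IsHEquiv (f ≫ g)) (hg : IsHEquiv g) :
    IsHEquiv f := by
  obtain ⟨k, k1, k2⟩ := h
  obtain ⟨g', g1, g2⟩ := hg
  refine ⟨g ≫ k, ?_, ?_⟩
  · rw [← Category.assoc]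
    exact k1
  · have e1 : Homotopic (((g ≫ k) ≫ f) ≫ (g ≫ g')) ((g ≫ k) ≫ f) := by
      have := Homotopic.comp_left ((g ≫ k) ≫ f) g1
      rwa [Category.comp_id] at this
    have e2 : Homotopic (((g ≫ k) ≫ f) ≫ (g ≫ g')) (g ≫ g') := by
      have h1 : ((g ≫ k) ≫ f) ≫ (g ≫ g') = g ≫ (k ≫ f ≫ g) ≫ g' := by
        simp only [Category.assoc]
      rw [h1]
      have h2 := Homotopic.comp_left g (k2.comp_right g')
      rwa [Category.id_comp] at h2
    exact (e1.symm.trans e2).trans g1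

theorem isHEquiv_whiskerLeft {f : X ⟶ Y} (h : IsHEquiv f) (Z : LC) : IsHEquiv (Z ◁ f) := by
  obtain ⟨g, h1, h2⟩ := h
  refine ⟨Z ◁ g, ?_, ?_⟩
  · rw [← MonoidalCategory.whiskerLeft_comp]
    have := h1.whiskerLeft Z
    rwa [MonoidalCategory.whiskerLeft_id] at this
  · rw [← MonoidalCategory.whiskerLeft_comp]
    have := h2.whiskerLeft Z
    rwa [MonoidalCategory.whiskerLeft_id] at this

theorem isHEquiv_tensor {X' Y' : LC} {f : X ⟶ Y} {g : X' ⟶ Y'} (hf : IsHEquiv f)
    (hg : IsHEquiv g) : IsHEquiv (f ⊗ₘ g) := by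
  rw [MonoidalCategory.tensorHom_def]
  exact (hf.whiskerRight X').comp (isHEquiv_whiskerLeft hg Y)

theorem ofOpen_whiskerLeft {U V : LC} (j : U → V) (hj : IsOpenEmbedding j) (Z : LC) :
    Z ◁ ofOpen j hj = ofOpen (X := Z ⊗ V) (Y := Z ⊗ U) (Prod.map id j)
      (IsOpenEmbedding.id.prodMap hj) := by
  apply tensor_ext
  intro z v
  rw [app_whiskerLeft_smash]
  by_cases hv : v ∈ Set.range j
  · obtain ⟨u, rfl⟩ := hv
    rw [app_ofOpen_coe]
    exact (app_ofOpen_coe (X := Z ⊗ V) (Y := Z ⊗ U) (Prod.map id j)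
      (IsOpenEmbedding.id.prodMap hj) (z, u)).symm
  · rw [app_ofOpen_of_notMem j hj hv, smash_infty_right]
    refine (app_ofOpen_of_notMem (X := Z ⊗ V) (Y := Z ⊗ U) (x := (z, v)) (Prod.map id j)
      (IsOpenEmbedding.id.prodMap hj) ?_).symm
    rintro ⟨⟨z', u⟩, h⟩
    exact hv ⟨u, congrArg Prod.snd h⟩

end hequiv

/-! ### The line -/

section line

/-- the open embedding `x ↦ exp x` of the line in itself -/
noncomputable def pex (x : RR) : RR := Real.exp x

/-- the open embedding `x ↦ - exp x` of the line in itself -/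
noncomputable def nex (x : RR) : RR := -Real.exp x

theorem isOpenEmbedding_pex : IsOpenEmbedding pex := Real.isOpenEmbedding_exp

theorem isOpenEmbedding_nex : IsOpenEmbedding nex :=
  (Homeomorph.neg ℝ).isOpenEmbedding.comp Real.isOpenEmbedding_exp

theorem mem_range_pex (x : RR) : x ∈ Set.range pex ↔ (0 : ℝ) < x := by
  constructor
  · rintro ⟨y, rfl⟩
    exact Real.exp_pos y
  · intro h
    exact ⟨Real.log x, Real.exp_log h⟩

theorem mem_range_nex (x : RR) : x ∈ Set.range nex ↔ @LT.lt ℝ _ x 0 := by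
  constructor
  · rintro ⟨y, rfl⟩
    exact neg_neg_of_pos (Real.exp_pos y)
  · intro h
    refine ⟨Real.log (-(show ℝ from x)), ?_⟩
    have h1 : Real.exp (Real.log (-(show ℝ from x))) = -(show ℝ from x) :=
      Real.exp_log (neg_pos.mpr h)
    change -Real.exp (Real.log (-(show ℝ from x))) = (show ℝ from x)
    rw [h1, neg_neg]

/-- the collapse of `[0, ∞)` in the line -/
noncomputable def kneg : RR ⟶ RR := ofOpen nex isOpenEmbedding_nex

/-- the collapse of `(-∞, 0]` in the line -/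
noncomputable def kpos : RR ⟶ RR := ofOpen pex isOpenEmbedding_pex

/-- the inclusion `[0, ∞) → ℝ` -/
def hhIn (x : HH) : RR := NNReal.toReal x

/-- the map `[0, ∞) → ℝ`, `s ↦ - s` -/
def hhNeg (x : HH) : RR := -NNReal.toReal x

theorem isClosedEmbedding_hhIn : IsClosedEmbedding hhIn := NNReal.isClosedEmbedding_coe

theorem isClosedEmbedding_hhNeg : IsClosedEmbedding hhNeg :=
  (Homeomorph.neg ℝ).isClosedEmbedding.comp NNReal.isClosedEmbedding_coe

/-- the point `0` -/
def pt0 (_ : LC.of Unit) : HH := (0 : NNReal)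

theorem isClosedEmbedding_pt0 : IsClosedEmbedding pt0 := by
  refine ⟨⟨⟨?_⟩, fun _ _ _ => rfl⟩, ?_⟩
  · exact Subsingleton.elim _ _
  · exact (Set.finite_range pt0).isClosed

theorem point_zero_eq : point (X := HH) (0 : NNReal) = ofClosed pt0 isClosedEmbedding_pt0 := by
  ext x
  rfl

theorem isPushout_line : IsPushout (point (X := HH) (0 : NNReal)) (point (X := HH) (0 : NNReal))
    (ofClosed hhNeg isClosedEmbedding_hhNeg) (ofClosed hhIn isClosedEmbedding_hhIn) := by
  rw [point_zero_eq]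
  refine isPushout_closed _ _ _ _ ?_ ?_ ?_
  · intro a
    exact neg_zero (G := ℝ)
  · intro x
    rcases le_total (show ℝ from x) 0 with h | h
    · exact Or.inl ⟨⟨-(show ℝ from x), neg_nonneg.mpr h⟩, neg_neg (show ℝ from x)⟩
    · exact Or.inr ⟨⟨x, h⟩, rfl⟩
  · rintro b ⟨c, hc⟩
    refine ⟨(), ?_⟩
    have h1 : NNReal.toReal c = -NNReal.toReal b := hc
    have h2 : (0 : ℝ) ≤ NNReal.toReal c := c.2
    have h3 : (0 : ℝ) ≤ NNReal.toReal b := b.2
    apply NNReal.coe_injective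
    change (0 : ℝ) = NNReal.toReal b
    linarith

theorem cofib_hhIn : Cofib (ofClosed hhIn isClosedEmbedding_hhIn) :=
  cofib_point_zero.pushout isPushout_line

theorem isHEquiv_kneg : IsHEquiv kneg := by
  have hc : IsCompl (Set.range hhIn) (Set.range nex) := by
    refine isCompl_of_iff ?_
    intro x
    rw [mem_range_nex, not_lt]
    constructor
    · rintro ⟨c, rfl⟩
      exact c.2
    · intro h
      exact ⟨⟨x, h⟩, rfl⟩
  have h1 := cofMap_cofClosedOpen hhIn isClosedEmbedding_hhIn nex isOpenEmbedding_nex hc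
  change _ = kneg at h1
  rw [← h1]
  exact (isHEquiv_cofMap cofib_hhIn contr_HH).comp (isHEquiv_of_iso _)

theorem kpos_eq : kpos = (ofHomeo (X := RR) (Y := RR) (Homeomorph.neg ℝ)).hom ≫ kneg := by
  ext x
  rw [app_comp, app_ofHomeo_hom_coe]
  by_cases hx : (0 : ℝ) < x
  · have e1 : pex (Real.log x) = x := Real.exp_log hx
    have e2 : nex (Real.log x) = -(show ℝ from x) := congrArg Neg.neg (Real.exp_log hx)
    have h1 : app kpos ((pex (Real.log x) : RR) : OnePoint RR) = _ :=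
      app_ofOpen_coe pex isOpenEmbedding_pex (Real.log x)
    have h2 : app kneg ((nex (Real.log x) : RR) : OnePoint RR) = _ :=
      app_ofOpen_coe nex isOpenEmbedding_nex (Real.log x)
    rw [e1] at h1
    rw [e2] at h2
    rw [h1]
    exact h2.symm
  · have h1 : app kpos (x : OnePoint RR) = ∞ :=
      app_ofOpen_of_notMem pex isOpenEmbedding_pex (by rw [mem_range_pex]; exact hx)
    have h2 : app kneg (((Homeomorph.neg ℝ) x : RR) : OnePoint RR) = ∞ :=
      app_ofOpen_of_notMem nex isOpenEmbedding_nex (by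
        rw [mem_range_nex, not_lt]
        exact neg_nonneg.mpr (not_lt.mp hx))
    rw [h1]
    exact h2.symm

theorem isHEquiv_kpos : IsHEquiv kpos := by
  rw [kpos_eq]
  exact (isHEquiv_of_iso _).comp isHEquiv_kneg

end line

/-! ### The cylinder pair -/

section cyl

variable {A C : LC} {w : A → C} (hw : IsClosedEmbedding w)

/-- the inclusion `A × ℝ → Y` as a function -/
def cyInFun (p : (A ⊗ RR : LC)) : cyY hw :=
  cyMk hw (w p.1) (Prod.snd (α := A) (β := ℝ) p) (Or.inr ⟨p.1, rfl⟩)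

theorem isClosedEmbedding_cyInFun : IsClosedEmbedding (cyInFun hw) := by
  have h1 : IsClosedEmbedding (Prod.map w id : A × ℝ → C × ℝ) := hw.prodMap IsClosedEmbedding.id
  exact ((isClosedEmbedding_subι (isClosed_cyS hw)).of_comp_iff).mp h1

/-- the inclusion `A × ℝ → Y` -/
def cyIn : A ⊗ RR ⟶ cyY hw := ofClosed (cyInFun hw) (isClosedEmbedding_cyInFun hw)

/-- the map `A × [0, ∞) → Y`, `(a, s) ↦ (w a, - s)` -/
def cyNeg (p : (A ⊗ HH : LC)) : cyY hw :=
  cyMk hw (w p.1) (-NNReal.toReal p.2) (Or.inr ⟨p.1, rfl⟩)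

theorem isClosedEmbedding_cyNeg : IsClosedEmbedding (cyNeg hw) := by
  have h1 : IsClosedEmbedding (Prod.map w (fun s : NNReal => -(s : ℝ)) : A × NNReal → C × ℝ) :=
    hw.prodMap isClosedEmbedding_hhNeg
  exact ((isClosedEmbedding_subι (isClosed_cyS hw)).of_comp_iff).mp h1

/-- the map `A → C × [0, ∞)`, `a ↦ (w a, 0)` -/
def cyBase (_hw : IsClosedEmbedding w) (a : A) : (C ⊗ HH : LC) := ((w a, 0) : C × NNReal)

theorem isClosedEmbedding_cyBase : IsClosedEmbedding (cyBase hw) :=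
  (isClosedEmbedding_base0 C).comp hw

theorem isPushout_cyTop : IsPushout (coneBase A)
    (ofClosed (cyBase hw) (isClosedEmbedding_cyBase hw))
    (ofClosed (cyNeg hw) (isClosedEmbedding_cyNeg hw))
    (ofClosed (cyTop hw) (isClosedEmbedding_cyTop hw)) := by
  rw [coneBase_eq]
  refine isPushout_closed (D := cyY hw) _ _ _ _ ?_ ?_ ?_
  · intro a
    exact cy_ext rfl (neg_zero (G := ℝ))
  · intro y
    rcases le_or_gt 0 (cyl hw y) with h | h
    · exact Or.inr ⟨((cyc hw y, ⟨cyl hw y, h⟩) : C × NNReal), rfl⟩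
    · left
      rcases cy_mem hw y with h1 | ⟨a, ha⟩
      · exact absurd h1 (not_le.mpr h)
      · exact ⟨((a, ⟨-cyl hw y, (neg_pos.mpr h).le⟩) : A × NNReal),
          cy_ext ha (neg_neg (cyl hw y))⟩
  · rintro ⟨a, s⟩ ⟨c, hc⟩
    have h1 : NNReal.toReal c.2 = -NNReal.toReal s := congrArg (fun y : cyY hw => cyl hw y) hc
    have h2 : (0 : ℝ) ≤ NNReal.toReal c.2 := c.2.2
    have h3 : (0 : ℝ) ≤ NNReal.toReal s := s.2
    have h4 : s = (0 : NNReal) := by
      apply NNReal.coe_injective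
      rw [NNReal.coe_zero]
      linarith
    exact ⟨a, Prod.ext rfl h4.symm⟩

theorem cofib_cyTop : Cofib (ofClosed (cyTop hw) (isClosedEmbedding_cyTop hw)) :=
  (cofib_coneBase A).pushout (isPushout_cyTop hw)

/-- the open embedding `A × ℝ → Y`, `(a, x) ↦ (w a, - exp x)` -/
noncomputable def cyRFun (p : (A ⊗ RR : LC)) : cyY hw :=
  cyMk hw (w p.1) (nex p.2) (Or.inr ⟨p.1, rfl⟩)

theorem mem_range_cyRFun (y : cyY hw) : y ∈ Set.range (cyRFun hw) ↔ cyl hw y < 0 := by
  constructor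
  · rintro ⟨p, rfl⟩
    exact (mem_range_nex _).mp ⟨p.2, rfl⟩
  · intro h
    rcases cy_mem hw y with h1 | ⟨a, ha⟩
    · exact absurd h1 (not_le.mpr h)
    · obtain ⟨x, hx⟩ := (mem_range_nex (cyl hw y)).mpr h
      exact ⟨((a, x) : A × ℝ), cy_ext ha hx⟩

theorem isOpenEmbedding_cyRFun : IsOpenEmbedding (cyRFun hw) := by
  refine ⟨?_, ?_⟩
  · have h1 : IsEmbedding (Prod.map w nex : A × ℝ → C × ℝ) :=
      hw.isEmbedding.prodMap isOpenEmbedding_nex.isEmbedding
    exact ((isClosedEmbedding_subι (isClosed_cyS hw)).isEmbedding.of_comp_iff).mp h1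
  · have h1 : Set.range (cyRFun hw) = {y | cyl hw y < 0} := Set.ext (mem_range_cyRFun hw)
    rw [h1]
    exact isOpen_lt (continuous_cyl hw) continuous_const

/-- the homotopy inverse of the inclusion `A × ℝ → Y` (up to a homotopy equivalence) -/
noncomputable def cyR : cyY hw ⟶ A ⊗ RR := ofOpen (cyRFun hw) (isOpenEmbedding_cyRFun hw)

theorem isHEquiv_cyR : IsHEquiv (cyR hw) := by
  have hc : IsCompl (Set.range (cyTop hw)) (Set.range (cyRFun hw)) := by
    refine isCompl_of_iff ?_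
    intro y
    rw [mem_range_cyRFun, not_lt]
    constructor
    · rintro ⟨p, rfl⟩
      exact p.2.2
    · intro h
      exact ⟨((cyc hw y, ⟨cyl hw y, h⟩) : C × NNReal), rfl⟩
  have h1 := cofMap_cofClosedOpen (cyTop hw) (isClosedEmbedding_cyTop hw) (cyRFun hw)
    (isOpenEmbedding_cyRFun hw) hc
  change _ = cyR hw at h1
  rw [← h1]
  exact (isHEquiv_cofMap (cofib_cyTop hw) (contr_tensor_HH C)).comp (isHEquiv_of_iso _)

theorem cyIn_cyR : cyIn hw ≫ cyR hw = A ◁ kneg := by
  apply tensor_ext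
  intro a l
  rw [app_comp, app_whiskerLeft_smash]
  have h0 : app (cyIn hw) (smash (a : OnePoint A) (l : OnePoint RR)) =
    ((cyInFun hw ((a, l) : A × ℝ) : cyY hw) : OnePoint (cyY hw)) := rfl
  rw [h0]
  by_cases hl : l ∈ Set.range nex
  · obtain ⟨x, rfl⟩ := hl
    have h1 : app kneg ((nex x : RR) : OnePoint RR) = (x : OnePoint RR) :=
      app_ofOpen_coe nex isOpenEmbedding_nex x
    rw [h1]
    exact app_ofOpen_coe (cyRFun hw) (isOpenEmbedding_cyRFun hw) ((a, x) : A × ℝ)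
  · have h1 : app kneg (l : OnePoint RR) = ∞ := app_ofOpen_of_notMem nex isOpenEmbedding_nex hl
    rw [h1, smash_infty_right]
    refine app_ofOpen_of_notMem (cyRFun hw) (isOpenEmbedding_cyRFun hw) ?_
    rw [mem_range_cyRFun]
    rw [mem_range_nex] at hl
    exact hl

/-- the inclusion `A × ℝ → Y` is a homotopy equivalence -/
theorem isHEquiv_cyIn : IsHEquiv (cyIn hw) := by
  refine isHEquiv_of_comp ?_ (isHEquiv_cyR hw)
  rw [cyIn_cyR]
  exact isHEquiv_whiskerLeft isHEquiv_kneg A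

/-- the open embedding `C × ℝ → Y`, `(c, x) ↦ (c, exp x)` -/
noncomputable def cyOutFun (p : (C ⊗ RR : LC)) : cyY hw :=
  cyMk hw p.1 (pex p.2) (Or.inl (Real.exp_pos _).le)

theorem mem_range_cyOutFun (y : cyY hw) : y ∈ Set.range (cyOutFun hw) ↔ 0 < cyl hw y := by
  constructor
  · rintro ⟨p, rfl⟩
    exact (mem_range_pex _).mp ⟨p.2, rfl⟩
  · intro h
    obtain ⟨x, hx⟩ := (mem_range_pex (cyl hw y)).mpr h
    exact ⟨((cyc hw y, x) : C × ℝ), cy_ext rfl hx⟩

theorem isOpenEmbedding_cyOutFun : IsOpenEmbedding (cyOutFun hw) := by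
  refine ⟨?_, ?_⟩
  · have h1 : IsEmbedding (Prod.map id pex : C × ℝ → C × ℝ) :=
      IsEmbedding.id.prodMap isOpenEmbedding_pex.isEmbedding
    exact ((isClosedEmbedding_subι (isClosed_cyS hw)).isEmbedding.of_comp_iff).mp h1
  · have h1 : Set.range (cyOutFun hw) = {y | 0 < cyl hw y} := Set.ext (mem_range_cyOutFun hw)
    rw [h1]
    exact isOpen_lt continuous_const (continuous_cyl hw)

/-- the collapse of `Y₀` -/
noncomputable def cyOut : cyY hw ⟶ C ⊗ RR := ofOpen (cyOutFun hw) (isOpenEmbedding_cyOutFun hw)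

theorem isCompl_cyZ : IsCompl (Set.range (fun u : sub (isClosed_cyZ hw) => u.1))
    (Set.range (cyOutFun hw)) := by
  refine isCompl_of_iff ?_
  intro y
  rw [mem_range_cyOutFun, not_lt]
  constructor
  · rintro ⟨p, rfl⟩
    exact p.2
  · intro h
    exact ⟨⟨y, h⟩, rfl⟩

/-- the strict cofibre of `Y₀ ⟶ Y` -/
noncomputable def cyCof : cof (subι (isClosed_cyZ hw)) ≅ C ⊗ RR :=
  cofClosedOpen (fun u : sub (isClosed_cyZ hw) => u.1) (isClosedEmbedding_subι (isClosed_cyZ hw))
    (cyOutFun hw) (isOpenEmbedding_cyOutFun hw) (isCompl_cyZ hw)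

@[reassoc]
theorem cofMap_cyCof : cofMap (subι (isClosed_cyZ hw)) ≫ (cyCof hw).hom = cyOut hw :=
  cofMap_cofClosedOpen _ _ _ _ _

theorem cyIn_cyOut : cyIn hw ≫ cyOut hw = ofClosed w hw ⊗ₘ kpos := by
  apply tensor_ext
  intro a l
  rw [app_comp, app_tensorHom_smash]
  have h0 : app (cyIn hw) (smash (a : OnePoint A) (l : OnePoint RR)) =
    ((cyInFun hw ((a, l) : A × ℝ) : cyY hw) : OnePoint (cyY hw)) := rfl
  rw [h0]
  by_cases hl : l ∈ Set.range pex
  · obtain ⟨x, rfl⟩ := hl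
    have h1 : app kpos ((pex x : RR) : OnePoint RR) = (x : OnePoint RR) :=
      app_ofOpen_coe pex isOpenEmbedding_pex x
    rw [h1]
    exact app_ofOpen_coe (cyOutFun hw) (isOpenEmbedding_cyOutFun hw) ((w a, x) : C × ℝ)
  · have h1 : app kpos (l : OnePoint RR) = ∞ := app_ofOpen_of_notMem pex isOpenEmbedding_pex hl
    rw [h1, smash_infty_right]
    refine app_ofOpen_of_notMem (cyOutFun hw) (isOpenEmbedding_cyOutFun hw) ?_
    rw [mem_range_cyOutFun]
    rw [mem_range_pex] at hl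
    exact hl

end cyl

end Vale.Agent.P093.L192
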