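import Vale.Agent.P093.L192.CylUnit

/-!
# P093, block L192: the recursive powers and the functions on `Fin M`

* `pwHomeo Y M : PW Y M ≃ₜ (Fin M → Y)`;
* `mem_FS_iff` : `y ∈ FS Y S M s` iff at least `s` coordinates of `y` are in `S`;
* `PWmap` : the powers of a morphism.
-/

open CategoryTheory MonoidalCategory Filter Topology OnePoint Limits
open Vale.Agent.P251.G Vale.Agent.P251.G.LC

namespace Vale.Agent.P093.L192

section homeo

variable (Y : LC)

/-- adding a last coordinate -/
def snocHomeo (M : ℕ) : (Fin M → Y) × Y ≃ₜ (Fin (M + 1) → Y) where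
  toFun p := Fin.snoc (α := fun _ => Y) p.1 p.2
  invFun f := (Fin.init f, f (Fin.last M))
  left_inv p := by simp
  right_inv f := by simp
  continuous_toFun := by fun_prop
  continuous_invFun := by fun_prop

/-- The recursive power is the space of functions on `Fin M`. -/
def pwHomeo : (M : ℕ) → PW Y M ≃ₜ (Fin M → Y)
  | 0 => Homeomorph.homeomorphOfUnique Unit (Fin 0 → Y)
  | M + 1 => ((pwHomeo M).prodCongr (Homeomorph.refl Y)).trans (snocHomeo Y M)

theorem pwHomeo_succ (M : ℕ) (p : PW Y M × Y) :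
    pwHomeo Y (M + 1) p = Fin.snoc (α := fun _ => Y) (pwHomeo Y M p.1) p.2 := rfl

theorem pwHomeo_last (M : ℕ) (p : PW Y M) (q : Y) :
    pwHomeo Y (M + 1) ((p, q) : PW Y M × Y) (Fin.last M) = q := by
  rw [pwHomeo_succ, Fin.snoc_last]

theorem pwHomeo_cast (M : ℕ) (p : PW Y M) (q : Y) (i : Fin M) :
    pwHomeo Y (M + 1) ((p, q) : PW Y M × Y) i.castSucc = pwHomeo Y M p i := by
  rw [pwHomeo_succ, Fin.snoc_castSucc]

end homeo

theorem ncard_fin_succ {M : ℕ} (P : Fin (M + 1) → Prop) :
    {i : Fin (M + 1) | P i}.ncard = {i : Fin M | P i.castSucc}.ncard +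
      {i : Unit | P (Fin.last M)}.ncard := by
  classical
  have h1 : ∀ {n : ℕ} (Q : Fin n → Prop), {i | Q i}.ncard = ∑ i, if Q i then 1 else 0 := by
    intro n Q
    rw [← Finset.card_filter, ← Set.ncard_coe_finset]
    congr 1
    ext i
    simp
  rw [h1, h1, Fin.sum_univ_castSucc]
  congr 1
  by_cases h : P (Fin.last M)
  · have : {i : Unit | P (Fin.last M)} = Set.univ := by ext; simp [h]
    rw [if_pos h, this, Set.ncard_univ]
    simp
  · have : {i : Unit | P (Fin.last M)} = ∅ := by ext; simp [h]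
    rw [if_neg h, this, Set.ncard_empty]

/-- membership in the filtration -/
theorem mem_FS_iff (Y : LC) (S : Set Y) (M s : ℕ) (y : PW Y M) :
    y ∈ FS Y S M s ↔ s ≤ {i | pwHomeo Y M y i ∈ S}.ncard := by
  induction M generalizing s with
  | zero =>
    have h0 : {i : Fin 0 | pwHomeo Y 0 y i ∈ S}.ncard = 0 := by
      rw [Set.ncard_eq_zero]
      ext i
      exact i.elim0
    rw [h0, Nat.le_zero]
    exact Iff.rfl
  | succ M ih =>
    obtain ⟨p, q⟩ := y
    rw [ncard_fin_succ]
    have h1 : {i : Fin M | pwHomeo Y (M + 1) ((p, q) : PW Y M × Y) i.castSucc ∈ S} =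
        {i : Fin M | pwHomeo Y M p i ∈ S} := by
      ext i
      change pwHomeo Y (M + 1) ((p, q) : PW Y M × Y) i.castSucc ∈ S ↔ _
      rw [pwHomeo_succ, Fin.snoc_castSucc]
      exact Iff.rfl
    have h2 : pwHomeo Y (M + 1) ((p, q) : PW Y M × Y) (Fin.last M) = q := by
      rw [pwHomeo_succ, Fin.snoc_last]
    change (p ∈ FS Y S M s ∨ (p ∈ FS Y S M (s - 1) ∧ q ∈ S)) ↔ _
    rw [ih, ih]
    by_cases hq : q ∈ S
    · have h3 : {i : Unit | pwHomeo Y (M + 1) ((p, q) : PW Y M × Y) (Fin.last M) ∈ S}.ncard = 1 := by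
        have : {i : Unit | pwHomeo Y (M + 1) ((p, q) : PW Y M × Y) (Fin.last M) ∈ S} =
            Set.univ := by
          ext
          simp only [Set.mem_univ, iff_true]
          change pwHomeo Y (M + 1) ((p, q) : PW Y M × Y) (Fin.last M) ∈ S
          rw [h2]
          exact hq
        rw [this, Set.ncard_univ]
        simp
      have h4 : {i : Fin M | pwHomeo Y (M + 1) ((p, q) : PW Y M × Y) i.castSucc ∈ S}.ncard =
        {i : Fin M | pwHomeo Y M p i ∈ S}.ncard := by rw [h1]
      rw [show {i : Unit | pwHomeo Y (M + 1) (p, q) (Fin.last M) ∈ S}.ncard = 1 from h3,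
        show {i : Fin M | pwHomeo Y (M + 1) (p, q) i.castSucc ∈ S}.ncard = _ from h4]
      simp only [hq, and_true]
      omega
    · have h3 : {i : Unit | pwHomeo Y (M + 1) ((p, q) : PW Y M × Y) (Fin.last M) ∈ S}.ncard = 0 := by
        have : {i : Unit | pwHomeo Y (M + 1) ((p, q) : PW Y M × Y) (Fin.last M) ∈ S} = ∅ := by
          ext
          simp only [Set.mem_empty_iff_false, iff_false]
          change ¬ pwHomeo Y (M + 1) ((p, q) : PW Y M × Y) (Fin.last M) ∈ S
          rw [h2]
          exact hq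
        rw [this, Set.ncard_empty]
      have h4 : {i : Fin M | pwHomeo Y (M + 1) ((p, q) : PW Y M × Y) i.castSucc ∈ S}.ncard =
        {i : Fin M | pwHomeo Y M p i ∈ S}.ncard := by rw [h1]
      rw [show {i : Unit | pwHomeo Y (M + 1) (p, q) (Fin.last M) ∈ S}.ncard = 0 from h3,
        show {i : Fin M | pwHomeo Y (M + 1) (p, q) i.castSucc ∈ S}.ncard = _ from h4]
      simp only [hq, and_false, or_false, add_zero]

/-! ### powers of morphisms -/

section map

variable {X Y : LC}

/-- the powers of a morphism -/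
def PWmap (f : X ⟶ Y) : (M : ℕ) → (PW X M ⟶ PW Y M)
  | 0 => 𝟙 _
  | M + 1 => PWmap f M ⊗ₘ f

theorem isHEquiv_PWmap {f : X ⟶ Y} (hf : IsHEquiv f) (M : ℕ) : IsHEquiv (PWmap f M) := by
  induction M with
  | zero => exact isHEquiv_of_iso (𝟙 _)
  | succ M ih => exact isHEquiv_tensor ih hf

/-- the powers of a closed embedding, on points -/
theorem app_PWmap_ofClosed (f : X → Y) (hf : IsClosedEmbedding f) (M : ℕ) (x : PW X M) :
    app (PWmap (ofClosed f hf) M) (x : OnePoint (PW X M)) =
      (((pwHomeo Y M).symm (fun i => f (pwHomeo X M x i)) : PW Y M) : OnePoint (PW Y M)) := by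
  induction M with
  | zero =>
    exact congrArg (OnePoint.some (X := Unit)) (Subsingleton.elim _ _)
  | succ M ih =>
    obtain ⟨p, q⟩ := x
    have h1 : app (PWmap (ofClosed f hf) (M + 1)) (OnePoint.some (X := PW X M × X) (p, q)) =
        smash (app (PWmap (ofClosed f hf) M) (p : OnePoint (PW X M)))
          (app (ofClosed f hf) (q : OnePoint X)) := rfl
    rw [ih, app_ofClosed_coe, smash_coe_coe] at h1
    refine h1.trans ?_
    have h2 : (pwHomeo Y (M + 1)).symm (fun i => f (pwHomeo X (M + 1) ((p, q) : PW X M × X) i)) =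
        (((pwHomeo Y M).symm (fun i => f (pwHomeo X M p i)), f q) : PW Y M × Y) := by
      refine (pwHomeo Y (M + 1)).injective ?_
      refine ((pwHomeo Y (M + 1)).apply_symm_apply _).trans ?_
      funext i
      induction i using Fin.lastCases with
      | last => exact (congrArg f (pwHomeo_last X M p q)).trans (pwHomeo_last Y M _ _).symm
      | cast i =>
        refine (congrArg f (pwHomeo_cast X M p q i)).trans ?_
        refine Eq.trans ?_ (pwHomeo_cast Y M _ _ i).symm
        rw [Homeomorph.apply_symm_apply]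
    exact congrArg (OnePoint.some (X := PW Y M × Y)) h2.symm

end map

end Vale.Agent.P093.L192
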