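import Vale.Agent.P093.L192.Fin
import Vale.Agent.P093.N4.Base
import Vale.Agent.P093.N4.LRGlue
import Vale.Agent.P251.St.ToFunctor

/-!
# P093, block L192: from the recursive model to the spaces of `LR`

* `filtRec_low` : the pair `(Y, {l ≤ 0})` satisfies `FiltRec`;
* `lr_of_inc₀` : if for every `ρ > 0` one of the inclusions `F_s^M → Y^M` (recursive model) with
  `s ≤ ρ M` vanishes in `T`, then `LR C u`.
-/

open CategoryTheory MonoidalCategory Filter Topology OnePoint Limits
open Vale.Agent.P251 Vale.Agent.P251.G Vale.Agent.P251.G.LC Vale.Agent.P251.I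

namespace Vale.Agent.P093.L192

section pair

variable {C Z : LC} (w : Z → C) (hw : IsClosedEmbedding w)

/-- the pair `(Y, {l ≤ 0})` has the properties used for the filtration -/
theorem filtRec_low (hC : FC C) (hZ : FC Z) : N4.FiltRec (N4.isClosed_low w hw) where
  hP := pp_cy hw
  fY := fc_cyY hw hZ hC
  fS := fc_cyZ hw hZ hC

theorem isHEquiv_unitHom : IsHEquiv (N4.unitHom w hw) := isHEquiv_cyIn hw

end pair

section St

open Vale.Agent.P251.St (Space Map toLC ofLC toHom ofHom SHCat Susp)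
open Vale.Agent.P093.U

variable {t : ℕ} (C : Space) (u : (Fin t → ℝ) → C.carrier) (hu : IsClosedEmbedding u)

/-- the space `Y` as an object of `LC` -/
abbrev YC : LC := N4.cylLC (Z := Sph t) (C := toLC C) u hu

/-- the subset `{l ≤ 0}` of `Y` -/
abbrev lowC : Set (YC C u hu) := N4.low (Z := Sph t) (C := toLC C) u hu

/-- it is closed -/
theorem isClosed_lowC : IsClosed (lowC C u hu) := N4.isClosed_low (Z := Sph t) (C := toLC C) u hu

/-- the powers of `Y` in the two models -/
def powHomeo (M : ℕ) : (ofLC (PW (YC C u hu) M)).carrier ≃ₜ (cylPow C u hu M).carrier :=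
  pwHomeo (YC C u hu) M

/-- the filtrations in the two models -/
def filHomeo (M s : ℕ) :
    (ofLC (XX (isClosed_lowC C u hu) M s)).carrier ≃ₜ (cylFil C u hu M s).carrier :=
  (pwHomeo (YC C u hu) M).subtype (fun y => mem_FS_iff (YC C u hu) (lowC C u hu) M s y)

/-- the powers of `Y` in the two models, in `LC` -/
def powIso (M : ℕ) : PW (YC C u hu) M ≅ toLC (cylPow C u hu M) :=
  ofHomeo (X := PW (YC C u hu) M) (Y := toLC (cylPow C u hu M)) (powHomeo C u hu M)

/-- the filtrations in the two models, in `LC` -/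
def filIso (M s : ℕ) : XX (isClosed_lowC C u hu) M s ≅ toLC (cylFil C u hu M s) :=
  ofHomeo (X := XX (isClosed_lowC C u hu) M s) (Y := toLC (cylFil C u hu M s))
    (filHomeo C u hu M s)

theorem toHom_cylFilMap (M s : ℕ) : toHom (cylFilMap C u hu M s) =
    (filIso C u hu M s).inv ≫ XXι (isClosed_lowC C u hu) M s ≫ (powIso C u hu M).hom := by
  rw [Iso.eq_inv_comp]
  apply hom_ext
  intro x
  rfl

theorem cofib_cylFilMap (M s : ℕ) : St.Cofib (cylFilMap C u hu M s) := by
  rw [St.cofib_iff, toHom_cylFilMap]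
  have h1 : Cofib (XXι (isClosed_lowC C u hu) M s) :=
    cofib_XXι (isClosed_lowC C u hu) (pp_cy (A := Sph t) (C := toLC C) hu) M s
  exact (h1.comp_iso (powIso C u hu M)).iso_comp (filIso C u hu M s).symm

variable (hC : St.FC C)

include hC

/-- the properties of the pair -/
theorem filtRecC : N4.FiltRec (isClosed_lowC C u hu) :=
  filtRec_low (Z := Sph t) (C := toLC C) u hu (St.fc_toLC hC) (FC.sph t)

theorem fc_cylPow (M : ℕ) : St.FC (cylPow C u hu M) := by
  have h1 : FC (PW (YC C u hu) M) := fc_PW (filtRecC C u hu hC).fY M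
  exact (St.fc_ofLC h1).hequiv (hequiv_homeo (powHomeo C u hu M))

theorem fc_cylFil (M s : ℕ) : St.FC (cylFil C u hu M s) := by
  have h1 : FC (XX (isClosed_lowC C u hu) M s) := (filtRecC C u hu hC).fX M s
  exact (St.fc_ofLC h1).hequiv (hequiv_homeo (filHomeo C u hu M s))

omit hC in
/-- the unit in the two models -/
theorem toHom_cylUnit (M : ℕ) : toHom (cylUnit C u hu M) =
    (ofHomeo (X := PW (Sph t ⊗ RR) M) (Y := toLC (cylSph t M)) (pwHomeo (Sph t ⊗ RR) M)).inv ≫
      PWmap (N4.unitHom (Z := Sph t) (C := toLC C) u hu) M ≫ (powIso C u hu M).hom := by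
  rw [Iso.eq_inv_comp]
  apply hom_ext
  intro x
  rw [app_comp, app_comp]
  have h1 := app_PWmap_ofClosed _ (N4.isClosedEmbedding_unitFun (Z := Sph t) (C := toLC C) u hu) M x
  change _ = app (powIso C u hu M).hom (app (PWmap (ofClosed _
    (N4.isClosedEmbedding_unitFun (Z := Sph t) (C := toLC C) u hu)) M) (x : OnePoint _))
  rw [h1]
  have h2 : app (powIso C u hu M).hom ((((pwHomeo (YC C u hu) M).symm (fun i =>
      N4.unitFun (Z := Sph t) (C := toLC C) u hu (pwHomeo (Sph t ⊗ RR) M x i)) :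
        PW (YC C u hu) M)) : OnePoint (PW (YC C u hu) M)) =
      OnePoint.some (X := (cylPow C u hu M).carrier) (fun i =>
      N4.unitFun (Z := Sph t) (C := toLC C) u hu (pwHomeo (Sph t ⊗ RR) M x i)) :=
    congrArg (OnePoint.some (X := (cylPow C u hu M).carrier))
      ((pwHomeo (YC C u hu) M).apply_symm_apply _)
  rw [h2]
  rfl

section functor

omit hC in
theorem isIso_map_of_isHEquiv {T : SHCat} (F : Susp T) {A B : Space} (f : Map A B)
    (hA : St.FC A) (hB : St.FC B) (hf : IsHEquiv (toHom f)) : IsIso (F.map f) :=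
  F.toSpaceFunctor.isIso_map
    (FCat.hom (toHom f) : (⟨toLC A, St.fc_toLC hA⟩ : FCat) ⟶ ⟨toLC B, St.fc_toLC hB⟩) hf

variable {T : SHCat} (F : Susp T)

theorem isIso_map_cylUnit (M : ℕ) : IsIso (F.map (cylUnit C u hu M)) := by
  refine isIso_map_of_isHEquiv F (cylUnit C u hu M) (fc_cylSph t M) (fc_cylPow C u hu hC M) ?_
  have h1 : IsHEquiv (PWmap (N4.unitHom (Z := Sph t) (C := toLC C) u hu) M) :=
    isHEquiv_PWmap (isHEquiv_unitHom (Z := Sph t) (C := toLC C) u hu) M
  have h2 : IsHEquiv (powIso C u hu M).hom := isHEquiv_of_iso _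
  have h3 : IsHEquiv (ofHomeo (X := PW (Sph t ⊗ RR) M) (Y := toLC (cylSph t M))
    (pwHomeo (Sph t ⊗ RR) M)).inv := isHEquiv_of_iso _
  rw [toHom_cylUnit]
  exact h3.comp (h1.comp h2)

theorem isIso_map_cylUnitR' (M : ℕ) : IsIso (F.map (cylUnitR C u hu M)) :=
  isIso_map_cylUnitR C u F hu M (fc_cylPow C u hu hC M) (isIso_map_cylUnit C u hu hC F M)

/-- if `F_s^M → Y^M` vanishes in the recursive model, then it vanishes -/
theorem map_cylFilMap_eq_zero (M s : ℕ)
    (h : F.toSpaceFunctor.S.map ((filtRecC C u hu hC).inc₀ M s) = 0) :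
    F.map (cylFilMap C u hu M s) = 0 := by
  let R := filtRecC C u hu hC
  let P : FCat := ⟨toLC (cylPow C u hu M), St.fc_toLC (fc_cylPow C u hu hC M)⟩
  let Q : FCat := ⟨toLC (cylFil C u hu M s), St.fc_toLC (fc_cylFil C u hu hC M s)⟩
  let a : Q ⟶ R.Xo M s := FCat.hom (filIso C u hu M s).inv
  let b : R.Xo M 0 ⟶ P :=
    FCat.hom (XXι (isClosed_lowC C u hu) M 0 ≫ (powIso C u hu M).hom)
  have h1 : (FCat.hom (toHom (cylFilMap C u hu M s)) : Q ⟶ P) = a ≫ R.inc₀ M s ≫ b := by
    ext1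
    change toHom (cylFilMap C u hu M s) = (filIso C u hu M s).inv ≫
      XXinc (isClosed_lowC C u hu) M (Nat.zero_le s) ≫ XXι (isClosed_lowC C u hu) M 0 ≫
        (powIso C u hu M).hom
    rw [toHom_cylFilMap, XXinc_ι_assoc]
  have h2 : F.map (cylFilMap C u hu M s) =
      F.toSpaceFunctor.S.map (FCat.hom (toHom (cylFilMap C u hu M s)) : Q ⟶ P) := rfl
  rw [h2, h1, Functor.map_comp, Functor.map_comp, h, zero_comp, comp_zero]
  rfl

/-- **From the recursive model to `LR`.** -/
theorem lr_of_inc₀ (h : ∀ ρ : ℝ, 0 < ρ → ∃ M s : ℕ, 0 < M ∧ (s : ℝ) ≤ ρ * M ∧ s ≤ M ∧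
      F.toSpaceFunctor.S.map ((filtRecC C u hu hC).inc₀ M s) = 0) : LR C u := by
  refine N4.lr_of_map_zero F C u hu (cofib_cylFilMap C u hu) (fc_cylFil C u hu hC)
    (fc_cylPow C u hu hC) (isIso_map_cylUnitR' C u hu hC F) ?_
  intro ρ hρ
  obtain ⟨M, s, h1, h2, -, h3⟩ := h ρ hρ
  exact ⟨M, s, h1, h2, map_cylFilMap_eq_zero C u hu hC F M s h3⟩

end functor

end St

end Vale.Agent.P093.L192
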