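import Vale.Agent.P093.L192.Pair

/-!
# P093, block L192: the induction over the filtration `F_s^M`

For a closed subset `S` of `Y` with the pushout product property:

* `toTop : XX (M+1) (s+1) ⟶ XX M s ⊗ Y` and `fromTop : XX M s ⊗ Y ⟶ XX (M+1) s` are cofibrations,
  their composite is the inclusion; `toTop_collapse`: `toTop` followed by the two collapses is `0`;
* `cofib_XXinc`, `cofib_XXι`, `fc_XX`.
-/

open CategoryTheory MonoidalCategory Filter Topology OnePoint Limits
open Vale.Agent.P251.G Vale.Agent.P251.G.LC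

namespace Vale.Agent.P093.L192

section W

variable {X Y : LC} {A B : Set X} {S : Set Y} (hA : IsClosed A) (hB : IsClosed B)
  (hS : IsClosed S)

theorem PP.cofib (h : PP Y S) (hS : IsClosed S) : Cofib (subι hS) := by
  have h1 : Cofib (subι hS ≫ (λ_ Y).inv) := by
    refine h (A := LC.of Empty) (B := 𝟙_ LC) 0 _ (cofib_of_isEmpty _) ?_ ?_
    · have h2 : Function.Injective (app (λ_ Y).inv) := by
        intro x y hxy
        have := congrArg (app (λ_ Y).hom) hxy
        rwa [← app_comp, ← app_comp, Iso.inv_hom_id, app_id, app_id] at this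
      exact h2.comp (injective_subι hS)
    · intro b y
      have h3 : ∀ y' : OnePoint Y, app (λ_ Y).inv y' = smash ((() : Unit) : OnePoint Unit) y' := by
        intro y'
        induction y' using OnePoint.rec with
        | infty => exact app_infty _
        | coe y' => rfl
      rw [← range_subι hS]
      constructor
      · rintro ⟨x, hx⟩
        rw [app_comp, h3] at hx
        rcases smash_inj hx with ⟨-, h4⟩ | ⟨-, h4⟩
        · exact Or.inr ⟨x, h4⟩
        · rcases smash_eq_infty.mp h4 with h5 | h5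
          · left; rw [h5]; exact ⟨∞, rfl⟩
          · right; rw [h5]; exact ⟨∞, app_infty _⟩
      · rintro (⟨x, hx⟩ | ⟨x, hx⟩)
        · have h4 : b = ∞ := by
            rw [← hx]; rfl
          refine ⟨∞, ?_⟩
          rw [h4, smash_infty_left]
          exact app_infty _
        · induction b using OnePoint.rec with
          | infty =>
            refine ⟨∞, ?_⟩
            rw [smash_infty_left]
            exact app_infty _
          | coe b =>
            refine ⟨x, ?_⟩
            rw [app_comp, h3, hx]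
            rfl
  have h2 := h1.comp_iso (λ_ Y)
  rwa [Category.assoc, Iso.inv_hom_id, Category.comp_id] at h2

/-- the map `A × Y ∪ B × S ⟶ B × Y`, for `A ⊆ B` -/
def toPFun (h : A ⊆ B) (p : sub (isClosed_Wset hA hB hS)) : (sub hB ⊗ Y : LC) :=
  ((⟨p.1.1, by rcases p.2 with h1 | h1; exacts [h h1, h1.1]⟩, p.1.2) : sub hB × Y)

theorem isClosedEmbedding_toPFun (h : A ⊆ B) : IsClosedEmbedding (toPFun hA hB hS h) := by
  have h1 : IsClosedEmbedding (fun p : sub hB × Y => ((p.1.1, p.2) : X × Y)) :=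
    (isClosedEmbedding_subι hB).prodMap IsClosedEmbedding.id
  rw [← h1.of_comp_iff]
  exact isClosedEmbedding_subι (isClosed_Wset hA hB hS)

/-- the morphism `A × Y ∪ B × S ⟶ B × Y`, for `A ⊆ B` -/
def toP (h : A ⊆ B) : sub (isClosed_Wset hA hB hS) ⟶ sub hB ⊗ Y :=
  ofClosed _ (isClosedEmbedding_toPFun hA hB hS h)

theorem injective_toP (h : A ⊆ B) : Function.Injective (app (toP hA hB hS h)) :=
  injective_ofClosed _ _

theorem mem_range_toP (h : A ⊆ B) (b : OnePoint (sub hB)) (y : OnePoint Y) :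
    smash b y ∈ Set.range (app (toP hA hB hS h)) ↔
      (b ∈ Set.range (app (inc hA hB h)) ∨ y ∈ ptd S) := by
  unfold toP inc
  rw [range_ofClosed, range_ofClosed]
  induction b using OnePoint.rec with
  | infty =>
    rw [smash_infty_left]
    exact ⟨fun _ => Or.inl (infty_mem_ptd _), fun _ => infty_mem_ptd (D := sub hB ⊗ Y) _⟩
  | coe b =>
    induction y using OnePoint.rec with
    | infty =>
      rw [smash_infty_right]
      exact ⟨fun _ => Or.inr (infty_mem_ptd _), fun _ => infty_mem_ptd (D := sub hB ⊗ Y) _⟩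
    | coe y =>
      rw [smash_coe_coe, coe_mem_ptd, coe_mem_ptd, coe_mem_ptd]
      constructor
      · rintro ⟨⟨p, hp⟩, h1⟩
        have h2 : p.1 = b.1 := congrArg (fun z : sub hB × Y => z.1.1) h1
        have h3 : p.2 = y := congrArg (fun z : sub hB × Y => z.2) h1
        rcases hp with hp | hp
        · left
          exact ⟨⟨b.1, h2 ▸ hp⟩, rfl⟩
        · right
          exact h3 ▸ hp.2
      · rintro (⟨a, ha⟩ | hy)
        · refine ⟨⟨(b.1, y), Or.inl ?_⟩, rfl⟩
          have h1 : a.1 = b.1 := congrArg Subtype.val ha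
          change b.1 ∈ A
          rw [← h1]
          exact a.2
        · exact ⟨⟨(b.1, y), Or.inr ⟨b.2, hy⟩⟩, rfl⟩

theorem cofib_toP (hP : PP Y S) (h : A ⊆ B) (hi : Cofib (inc hA hB h)) :
    Cofib (toP hA hB hS h) :=
  hP _ _ hi (injective_toP hA hB hS h) (mem_range_toP hA hB hS h)

/-- the map `A × Y ⟶ A × Y ∪ B × S` -/
def frPFun (p : (sub hA ⊗ Y : LC)) : sub (isClosed_Wset hA hB hS) :=
  ⟨((p.1.1, p.2) : X × Y), Or.inl p.1.2⟩

theorem isClosedEmbedding_frPFun : IsClosedEmbedding (frPFun hA hB hS) := by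
  have h1 : IsClosedEmbedding (fun p : sub hA × Y => ((p.1.1, p.2) : X × Y)) :=
    (isClosedEmbedding_subι hA).prodMap IsClosedEmbedding.id
  exact ((isClosedEmbedding_subι (isClosed_Wset hA hB hS)).of_comp_iff).mp h1

/-- the morphism `A × Y ⟶ A × Y ∪ B × S` -/
def frP : sub hA ⊗ Y ⟶ sub (isClosed_Wset hA hB hS) :=
  ofClosed _ (isClosedEmbedding_frPFun hA hB hS)

/-- the map `B × S ⟶ A × Y ∪ B × S` -/
def frSFun (p : (sub hB ⊗ sub hS : LC)) : sub (isClosed_Wset hA hB hS) :=
  ⟨((p.1.1, p.2.1) : X × Y), Or.inr ⟨p.1.2, p.2.2⟩⟩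

theorem isClosedEmbedding_frSFun : IsClosedEmbedding (frSFun hA hB hS) := by
  have h1 : IsClosedEmbedding (fun p : sub hB × sub hS => ((p.1.1, p.2.1) : X × Y)) :=
    (isClosedEmbedding_subι hB).prodMap (isClosedEmbedding_subι hS)
  exact ((isClosedEmbedding_subι (isClosed_Wset hA hB hS)).of_comp_iff).mp h1

/-- the morphism `B × S ⟶ A × Y ∪ B × S` -/
def frS : sub hB ⊗ sub hS ⟶ sub (isClosed_Wset hA hB hS) :=
  ofClosed _ (isClosedEmbedding_frSFun hA hB hS)

theorem isPushout_W (h : A ⊆ B) :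
    IsPushout (inc hA hB h ▷ sub hS) (sub hA ◁ subι hS) (frS hA hB hS) (frP hA hB hS) := by
  unfold inc subι frS frP
  rw [ofClosed_whiskerRight, ofClosed_whiskerLeft]
  refine isPushout_closed (D := sub (isClosed_Wset hA hB hS)) _ _ _ _ ?_ ?_ ?_
  · intro a
    rfl
  · rintro ⟨⟨x, y⟩, hp | hp⟩
    · exact Or.inr ⟨((⟨x, hp⟩, y) : sub hA × Y), rfl⟩
    · exact Or.inl ⟨((⟨x, hp.1⟩, ⟨y, hp.2⟩) : sub hB × sub hS), rfl⟩
  · rintro ⟨x, y⟩ ⟨⟨x', y'⟩, h1⟩
    have h2 : x'.1 = x.1 := congrArg (fun z => z.1.1) h1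
    exact ⟨((x', y) : sub hA × sub hS), Prod.ext (Subtype.ext h2) rfl⟩

theorem cofib_frP (h : A ⊆ B) (hi : Cofib (inc hA hB h)) : Cofib (frP hA hB hS) :=
  (hi.whiskerRight (sub hS)).pushout (isPushout_W hA hB hS h)

theorem fc_W (h : A ⊆ B) (hi : Cofib (inc hA hB h)) (fA : FC (sub hA)) (fB : FC (sub hB))
    (fY : FC Y) (fS : FC (sub hS)) : FC (sub (isClosed_Wset hA hB hS)) :=
  FC.pushout (fA.tensor fS) (fB.tensor fS) (fA.tensor fY) (hi.whiskerRight (sub hS))
    (isPushout_W hA hB hS h)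

/-- the composite `W(A, B) ⟶ B × Y ⟶ W(B, B')` is the inclusion -/
@[reassoc (attr := simp)]
theorem toP_frP {B' : Set X} (hB' : IsClosed B') (h : A ⊆ B) (h' : B ⊆ B') :
    toP hA hB hS h ≫ frP hB hB' hS =
      inc (isClosed_Wset hA hB hS) (isClosed_Wset hB hB' hS) (Wset_mono h h') := by
  ext x
  rfl

/-- `toP` followed by the two collapses is zero -/
theorem toP_collapse (h : A ⊆ B) :
    toP hA hB hS h ≫ (cofMap (inc hA hB h) ⊗ₘ cofMap (subι hS)) = 0 := by
  apply app_ext
  intro x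
  obtain ⟨b, y, hby⟩ := smash_surjective (X := sub hB) (Y := Y) (app (toP hA hB hS h) x)
  rw [app_comp, ← hby, app_tensorHom_smash, app_zero]
  have h1 : smash b y ∈ Set.range (app (toP hA hB hS h)) := ⟨x, hby.symm⟩
  rcases (mem_range_toP hA hB hS h b y).mp h1 with h2 | h2
  · rw [app_cofMap_of_mem _ h2, smash_infty_left]
  · rw [← range_subι hS] at h2
    rw [app_cofMap_of_mem _ h2, smash_infty_right]

@[reassoc (attr := simp)]
theorem toP_whisker (h : A ⊆ B) :
    toP hA hB hS h ≫ subι hB ▷ Y = subι (isClosed_Wset hA hB hS) := by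
  unfold subι
  rw [ofClosed_whiskerRight]
  ext x
  rfl

@[reassoc (attr := simp)]
theorem frP_subι : frP hA hB hS ≫ subι (isClosed_Wset hA hB hS) = subι hA ▷ Y := by
  unfold subι
  rw [ofClosed_whiskerRight]
  ext x
  rfl

end W

section rec

variable {Y : LC} {S : Set Y} (hS : IsClosed S)

/-- the map `F_(s+1)^(M+1) ⟶ F_s^M × Y` -/
def toTop (M s : ℕ) : XX hS (M + 1) (s + 1) ⟶ XX hS M s ⊗ Y :=
  toP (isClosed_FS hS M (s + 1)) (isClosed_FS hS M s) hS (FS_anti Y S M s.le_succ)

/-- the map `F_s^M × Y ⟶ F_s^(M+1)` -/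
def fromTop (M s : ℕ) : XX hS M s ⊗ Y ⟶ XX hS (M + 1) s :=
  frP (isClosed_FS hS M s) (isClosed_FS hS M (s - 1)) hS

@[reassoc (attr := simp)]
theorem toTop_fromTop (M s : ℕ) :
    toTop hS M s ≫ fromTop hS M s = XXinc hS (M + 1) s.le_succ :=
  toP_frP (isClosed_FS hS M (s + 1)) (isClosed_FS hS M s) hS (isClosed_FS hS M (s - 1))
    (FS_anti Y S M s.le_succ) (FS_anti Y S M (Nat.sub_le s 1))

theorem toTop_collapse (M s : ℕ) :
    toTop hS M s ≫ (cofMap (XXinc hS M s.le_succ) ⊗ₘ cofMap (subι hS)) = 0 :=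
  toP_collapse _ _ _ _

@[reassoc (attr := simp)]
theorem toTop_ι (M s : ℕ) : toTop hS M s ≫ XXι hS M s ▷ Y = XXι hS (M + 1) (s + 1) :=
  toP_whisker _ _ _ _

@[reassoc (attr := simp)]
theorem fromTop_ι (M s : ℕ) : fromTop hS M s ≫ XXι hS (M + 1) s = XXι hS M s ▷ Y :=
  frP_subι _ _ _

variable (hP : PP Y S)

include hP

theorem cofib_XXinc (M s : ℕ) : Cofib (XXinc hS M s.le_succ) := by
  induction M generalizing s with
  | zero =>
    have : IsEmpty (XX hS 0 (s + 1)) := ⟨fun x => Nat.succ_ne_zero s x.2⟩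
    exact cofib_of_isEmpty _
  | succ M ih =>
    rw [← toTop_fromTop]
    refine (cofib_toP _ _ _ hP _ (ih s)).comp (cofib_frP _ _ _ (FS_anti Y S M (Nat.sub_le s 1)) ?_)
    cases s with
    | zero =>
      have := inc_self' (isClosed_FS hS M 0) (isClosed_FS hS M (0 - 1))
        (FS_anti Y S M (Nat.sub_le 0 1)) rfl
      exact cofib_of_isIso _
    | succ s => exact ih s

/-- all the inclusions between the `F_s^M` are cofibrations -/
theorem cofib_XXinc_le (M : ℕ) {s s' : ℕ} (h : s ≤ s') : Cofib (XXinc hS M h) := by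
  obtain ⟨k, rfl⟩ := Nat.exists_eq_add_of_le h
  induction k with
  | zero => 
    have : XXinc hS M h = 𝟙 _ := inc_self _ _
    rw [this]
    exact cofib_of_isIso _
  | succ k ih =>
    have h1 : XXinc hS M (Nat.le_succ (s + k)) ≫ XXinc hS M (Nat.le_add_right s k) =
      XXinc hS M h := XXinc_inc _ _ _ _
    rw [← h1]
    exact (cofib_XXinc hS hP M (s + k)).comp (ih _)

theorem cofib_toTop (M s : ℕ) : Cofib (toTop hS M s) :=
  cofib_toP _ _ _ hP _ (cofib_XXinc hS hP M s)

theorem cofib_fromTop (M s : ℕ) : Cofib (fromTop hS M s) := by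
  refine cofib_frP _ _ _ (FS_anti Y S M (Nat.sub_le s 1)) ?_
  exact cofib_XXinc_le hS hP M (Nat.sub_le s 1)

omit hP in
instance isIso_XXι_zero (M : ℕ) : IsIso (XXι hS M 0) := by
  have h1 : ∀ (T : Set (PW Y M)) (hT : IsClosed T), T = Set.univ → IsIso (subι hT) := by
    rintro _ hT rfl
    exact isIso_subι_univ hT
  exact h1 _ _ (FS_zero Y S M)

theorem cofib_XXι (M s : ℕ) : Cofib (XXι hS M s) := by
  rw [← XXinc_ι hS M (Nat.zero_le s)]
  exact (cofib_XXinc_le hS hP M (Nat.zero_le s)).comp (cofib_of_isIso _)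

variable (fY : FC Y)

include fY

omit hP in
theorem fc_PW (M : ℕ) : FC (PW Y M) := by
  induction M with
  | zero => exact FC.unit
  | succ M ih => exact ih.tensor fY

theorem fc_XX (fS : FC (sub hS)) (M s : ℕ) : FC (XX hS M s) := by
  induction M generalizing s with
  | zero =>
    cases s with
    | zero => exact (fc_PW fY 0).of_iso (asIso (XXι hS 0 0)).symm
    | succ s =>
      have : IsEmpty (XX hS 0 (s + 1)) := ⟨fun x => Nat.succ_ne_zero s x.2⟩
      exact FC.of_isEmpty _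
  | succ M ih =>
    exact fc_W _ _ hS (FS_anti Y S M (Nat.sub_le s 1))
      (cofib_XXinc_le hS hP M (Nat.sub_le s 1)) (ih s) (ih (s - 1)) fY fS

theorem fc_cof_XXinc (fS : FC (sub hS)) (M s : ℕ) : FC (cof (XXinc hS M s.le_succ)) :=
  FC.cof (cofib_XXinc hS hP M s) (fc_XX hS hP fY fS M (s + 1)) (fc_XX hS hP fY fS M s)

end rec

end Vale.Agent.P093.L192
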