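import Vale.Agent.P093.L192.Glue
import Vale.Agent.P093.N4.LRSpace

/-!
# P093, block L192: `LR` from absolute vanishing lines

`lr_of_avl` : `C` a finite cell space, `u : R^t → C` a closed embedding such that `S u` is
`E`-split (the unit of `S^t` extends over `C`). If all absolute vanishing lines hold, then
`LR C u`.
-/

open CategoryTheory MonoidalCategory Filter Topology OnePoint Limits
open Vale.Agent.P251 Vale.Agent.P251.G Vale.Agent.P251.G.LC Vale.Agent.P251.I
open Vale.Agent.P251.St (Space Map toLC ofLC toHom ofHom SHCat Susp)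
open Vale.Agent.P093.U Vale.Agent.P093.N.TT Vale.Agent.P093.N.LR

namespace Vale.Agent.P093.L192

variable {t : ℕ} (C : Space) (u : (Fin t → ℝ) → C.carrier) (hu : IsClosedEmbedding u)
  (hC : St.FC C) {T : SHCat} (F : Susp T)

/-- the inclusion of `R^t` in `C` as a morphism of finite cell spaces -/
abbrev unitC : SphF t ⟶ (⟨toLC C, St.fc_toLC hC⟩ : FCat) :=
  FCat.hom (ofClosed (X := Sph t) (Y := toLC C) u hu)

/-- the suspension spectrum of `Y` is a sphere -/
theorem nonempty_iso_Yo :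
    Nonempty (F.toSpaceFunctor.S.obj (filtRecC C u hu hC).Yo ≅ (𝟙_ T.C)⟦((t : ℤ) + 1)⟧) := by
  have h1 := N4.isIso_map_unit F.toSpaceFunctor
    (C := (⟨toLC C, St.fc_toLC hC⟩ : FCat)) (Z := SphF t) u hu
  exact ⟨(asIso (F.toSpaceFunctor.S.map (N4.unitF (C := (⟨toLC C, St.fc_toLC hC⟩ : FCat))
      (Z := SphF t) u hu))).symm ≪≫ F.toSpaceFunctor.suspIso (SphF t) ≪≫
    (shiftFunctor T.C (1 : ℤ)).mapIso (M.sphIso F.toSpaceFunctor t) ≪≫
    ((shiftFunctorAdd' T.C (t : ℤ) 1 ((t : ℤ) + 1) rfl).app (𝟙_ T.C)).symm⟩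

/-- **`LR` from absolute vanishing lines.** -/
theorem lr_of_avl {U : UTri T.C} (hU : ∀ b : ℕ, AVL U (DimLE (T := T.C)) b)
    (hs : U.Spl (F.toSpaceFunctor.S.map (unitC C u hu hC))) : LR C u := by
  refine lr_of_inc₀ C u hu hC F ?_
  intro ρ hρ
  exact N4.FiltRec.exists_inc₀_eq_zero (filtRecC C u hu hC) F.toSpaceFunctor hU
    (N4.spl_qS F.toSpaceFunctor (C := (⟨toLC C, St.fc_toLC hC⟩ : FCat)) (Z := SphF t) u hu
      (filtRecC C u hu hC) hs) ((t : ℤ) + 1) (nonempty_iso_Yo C u hu hC F) ρ hρ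

end Vale.Agent.P093.L192
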