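import Vale.Agent.P251.G.Glue
import Vale.Agent.P251.G.CofibEx

/-!
# P093, block L192: closed subsets, pushout products and the filtration `F_s^M`

Everything is in the category `LC` of P251 (locally compact Hausdorff spaces, pointed maps of
one-point compactifications; `⊗` is the product of spaces).

* `PP Y S`: the closed subset `S` of `Y` has the pushout product property.
* `PW Y M`: the `M`-th power of `Y` (recursively), `FS Y S M s`: the points of `PW Y M` with at
  least `s` coordinates in `S`; `XX hS M s` the corresponding object of `LC`.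
-/

open CategoryTheory MonoidalCategory Filter Topology OnePoint Limits
open Vale.Agent.P251.G Vale.Agent.P251.G.LC

namespace Vale.Agent.P093.L192

section closed

variable {A B C D X Y : LC}

/-- A square of injective morphisms whose images cover and meet correctly is a pushout. -/
theorem isPushout_of_inj {i : A ⟶ B} {f : A ⟶ C} {g : B ⟶ D} {j : C ⟶ D} (w : i ≫ g = f ≫ j)
    (hg : Function.Injective (app g)) (hj : Function.Injective (app j))
    (hcov : ∀ d, d ∈ Set.range (app g) ∨ d ∈ Set.range (app j))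
    (hint : ∀ b, app g b ∈ Set.range (app j) → b ∈ Set.range (app i)) : IsPushout i f g j := by
  refine isPushout_of w hj ⟨?_, hg.injOn, ?_⟩
  · intro b hb h
    exact hb (hint b h)
  · intro d hd
    rcases hcov d with ⟨b, rfl⟩ | h
    · refine ⟨b, ?_, rfl⟩
      rintro ⟨a, rfl⟩
      apply hd
      refine ⟨app f a, ?_⟩
      rw [← app_comp, ← w, app_comp]
    · exact absurd h hd

/-- The same for closed embeddings. -/
theorem isPushout_closed {i : A → B} {f : A → C} {g : B → D} {j : C → D}
    (hi : IsClosedEmbedding i) (hf : IsClosedEmbedding f) (hg : IsClosedEmbedding g)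
    (hj : IsClosedEmbedding j) (w : ∀ a, g (i a) = j (f a))
    (hcov : ∀ d, d ∈ Set.range g ∨ d ∈ Set.range j)
    (hint : ∀ b, g b ∈ Set.range j → b ∈ Set.range i) :
    IsPushout (ofClosed i hi) (ofClosed f hf) (ofClosed g hg) (ofClosed j hj) := by
  refine isPushout_of_inj ?_ (injective_ofClosed _ _) (injective_ofClosed _ _) ?_ ?_
  · ext a
    change ((g (i a) : D) : OnePoint D) = ((j (f a) : D) : OnePoint D)
    rw [w]
  · intro d
    rw [range_ofClosed, range_ofClosed]
    induction d using OnePoint.rec with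
    | infty => left; exact infty_mem_ptd _
    | coe d => rw [coe_mem_ptd, coe_mem_ptd]; exact hcov d
  · intro b hb
    rw [range_ofClosed] at hb ⊢
    induction b using OnePoint.rec with
    | infty => exact infty_mem_ptd _
    | coe b =>
      rw [app_ofClosed_coe, coe_mem_ptd] at hb
      rw [coe_mem_ptd]
      exact hint b hb

theorem ofClosed_whiskerRight (f : A → B) (hf : IsClosedEmbedding f) (Y : LC) :
    ofClosed f hf ▷ Y = ofClosed (X := A ⊗ Y) (Y := B ⊗ Y) (Prod.map f id)
      (hf.prodMap IsClosedEmbedding.id) := by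
  apply tensor_ext
  intro x y
  rw [app_whiskerRight_smash]
  rfl

theorem ofClosed_whiskerLeft (f : A → B) (hf : IsClosedEmbedding f) (Y : LC) :
    Y ◁ ofClosed f hf = ofClosed (X := Y ⊗ A) (Y := Y ⊗ B) (Prod.map id f)
      (IsClosedEmbedding.id.prodMap hf) := by
  apply tensor_ext
  intro x y
  rw [app_whiskerLeft_smash]
  rfl

theorem ofClosed_comp (f : A → B) (hf : IsClosedEmbedding f) (g : B → C)
    (hg : IsClosedEmbedding g) :
    ofClosed f hf ≫ ofClosed g hg = ofClosed (g ∘ f) (hg.comp hf) := by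
  ext x
  rfl

/-- the inclusion of a closed subspace in a bigger one, as a function -/
def incFun {S T : Set X} (hS : IsClosed S) (hT : IsClosed T) (h : S ⊆ T) (x : sub hS) : sub hT :=
  ⟨x.1, h x.2⟩

theorem isClosedEmbedding_incFun {S T : Set X} (hS : IsClosed S) (hT : IsClosed T) (h : S ⊆ T) :
    IsClosedEmbedding (incFun hS hT h) :=
  ((isClosedEmbedding_subι hT).of_comp_iff).mp (isClosedEmbedding_subι hS)

/-- the inclusion of a closed subspace in a bigger one -/
def inc {S T : Set X} (hS : IsClosed S) (hT : IsClosed T) (h : S ⊆ T) : sub hS ⟶ sub hT :=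
  ofClosed (incFun hS hT h) (isClosedEmbedding_incFun hS hT h)

@[reassoc (attr := simp)]
theorem inc_subι {S T : Set X} (hS : IsClosed S) (hT : IsClosed T) (h : S ⊆ T) :
    inc hS hT h ≫ subι hT = subι hS := by
  ext x
  rfl

@[reassoc (attr := simp)]
theorem inc_inc {S T U : Set X} (hS : IsClosed S) (hT : IsClosed T) (hU : IsClosed U) (h : S ⊆ T)
    (k : T ⊆ U) : inc hS hT h ≫ inc hT hU k = inc hS hU (h.trans k) := by
  ext x
  rfl

@[simp]
theorem inc_self {S : Set X} (hS : IsClosed S) (h : S ⊆ S) : inc hS hS h = 𝟙 (sub hS) := by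
  ext x
  rfl

theorem inc_self' {S T : Set X} (hS : IsClosed S) (hT : IsClosed T) (h : S ⊆ T) (e : S = T) :
    IsIso (inc hS hT h) := by
  subst e
  rw [inc_self]
  infer_instance

theorem injective_inc {S T : Set X} (hS : IsClosed S) (hT : IsClosed T) (h : S ⊆ T) :
    Function.Injective (app (inc hS hT h)) := injective_ofClosed _ _

/-- closed subspaces given by equal subsets -/
def subCongr {S T : Set X} (hS : IsClosed S) (hT : IsClosed T) (h : S = T) : sub hS ≅ sub hT where
  hom := inc hS hT h.le
  inv := inc hT hS h.ge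

instance isIso_subι_univ (h : IsClosed (Set.univ : Set X)) : IsIso (subι h) := by
  let e : sub h ≃ₜ X := Homeomorph.Set.univ X
  exact inferInstanceAs (IsIso (ofHomeo (X := sub h) (Y := X) e).hom)

end closed

/-! ### The pushout product property -/

section pp

variable {X Y Z : LC}

/-- The pushout product property of a closed subset `S` of `Y`. -/
def PP (Y : LC) (S : Set Y) : Prop :=
  ∀ ⦃A B P : LC⦄ (i : A ⟶ B) (q : P ⟶ B ⊗ Y), Cofib i → Function.Injective (app q) →
    (∀ b y, smash b y ∈ Set.range (app q) ↔ (b ∈ Set.range (app i) ∨ y ∈ ptd S)) → Cofib q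

theorem PP.of_pndr {S : Set Y} (h : PNDR Y S) : PP Y S := fun _ _ _ _ _ hi hq hr =>
  hi.of_pushoutProduct h hq hr

end pp

/-! ### The closed subset `A × Y ∪ B × S` -/

section W

variable {X Y : LC}

/-- the closed subset `A × Y ∪ B × S` of `X × Y` -/
def Wset (A B : Set X) (S : Set Y) : Set (X ⊗ Y : LC) :=
  {p : X × Y | p.1 ∈ A ∨ (p.1 ∈ B ∧ p.2 ∈ S)}

theorem mem_Wset {A B : Set X} {S : Set Y} (p : X × Y) :
    p ∈ Wset A B S ↔ p.1 ∈ A ∨ (p.1 ∈ B ∧ p.2 ∈ S) := Iff.rfl

theorem isClosed_Wset {A B : Set X} {S : Set Y} (hA : IsClosed A) (hB : IsClosed B)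
    (hS : IsClosed S) : IsClosed (Wset A B S) :=
  (hA.preimage (continuous_fst (X := X) (Y := Y))).union
    ((hB.preimage (continuous_fst (X := X) (Y := Y))).inter
      (hS.preimage (continuous_snd (X := X) (Y := Y))))

theorem Wset_mono {A B A' B' : Set X} {S : Set Y} (h : A ⊆ A') (k : B ⊆ B') :
    Wset A B S ⊆ Wset A' B' S := by
  rintro p (hp | ⟨hp, hp'⟩)
  · exact Or.inl (h hp)
  · exact Or.inr ⟨k hp, hp'⟩

end W

/-! ### Powers and the filtration -/

section powers

variable (Y : LC) (S : Set Y)

/-- The powers of `Y`, by recursion. -/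
def PW : ℕ → LC
  | 0 => LC.of Unit
  | M + 1 => PW M ⊗ Y

/-- The points of the `M`-th power of `Y` with at least `s` coordinates in `S`. -/
def FS : (M : ℕ) → ℕ → Set (PW Y M)
  | 0, s => {_x | s = 0}
  | M + 1, s => Wset (FS M s) (FS M (s - 1)) S

theorem FS_zero_left (s : ℕ) : FS Y S 0 s = {_x | s = 0} := rfl

theorem FS_succ (M s : ℕ) : FS Y S (M + 1) s = Wset (FS Y S M s) (FS Y S M (s - 1)) S := rfl

theorem FS_zero (M : ℕ) : FS Y S M 0 = Set.univ := by
  induction M with
  | zero => ext x; simp [FS_zero_left]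
  | succ M ih =>
    rw [FS_succ, ih]
    exact Set.eq_univ_of_forall fun p => Or.inl (Set.mem_univ _)

theorem FS_anti (M : ℕ) {s s' : ℕ} (h : s ≤ s') : FS Y S M s' ⊆ FS Y S M s := by
  induction M generalizing s s' with
  | zero =>
    intro x hx
    change s' = 0 at hx
    change s = 0
    omega
  | succ M ih => exact Wset_mono (ih h) (ih (Nat.sub_le_sub_right h 1))

variable {Y S}

theorem isClosed_FS (hS : IsClosed S) (M s : ℕ) : IsClosed (FS Y S M s) := by
  induction M generalizing s with
  | zero => exact isClosed_const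
  | succ M ih => exact isClosed_Wset (ih s) (ih (s - 1)) hS

/-- `F_s^M` as an object of `LC` -/
def XX (hS : IsClosed S) (M s : ℕ) : LC := sub (isClosed_FS hS M s)

/-- the inclusion of `F_s^M` in the `M`-th power -/
def XXι (hS : IsClosed S) (M s : ℕ) : XX hS M s ⟶ PW Y M := subι (isClosed_FS hS M s)

/-- the inclusions between the `F_s^M` -/
def XXinc (hS : IsClosed S) (M : ℕ) {s s' : ℕ} (h : s ≤ s') : XX hS M s' ⟶ XX hS M s :=
  inc (isClosed_FS hS M s') (isClosed_FS hS M s) (FS_anti Y S M h)

@[reassoc (attr := simp)]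
theorem XXinc_ι (hS : IsClosed S) (M : ℕ) {s s' : ℕ} (h : s ≤ s') :
    XXinc hS M h ≫ XXι hS M s = XXι hS M s' := inc_subι _ _ _

@[reassoc (attr := simp)]
theorem XXinc_inc (hS : IsClosed S) (M : ℕ) {s s' s'' : ℕ} (h : s ≤ s') (k : s' ≤ s'') :
    XXinc hS M k ≫ XXinc hS M h = XXinc hS M (h.trans k) := inc_inc _ _ _ _ _

end powers

end Vale.Agent.P093.L192
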